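import Vale.Agent.P231.S3S.StdP
import Vale.Agent.P231.S2N.Main

/-!
# P231, stage 3, S3-STD: the total space of the bundle of negative directions

`Xi F D X δ ε` is the space of the pairs `(v, a)`, `a` in the negative space of the index form at
`v`. The circle acts by the geodesic flow on `v`. `pol` are the polar coordinates
`Pr e D × ℝ → Xi`, `dir` is the direction of a nonzero vector as a pair.
-/

set_option maxSynthPendingDepth 3
set_option linter.unusedSectionVars false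
set_option linter.unusedVariables false

open Bundle Manifold Set Filter Module MeasureTheory
open scoped ContDiff Manifold Topology ENNReal

namespace Vale.Agent.P231.S3S

noncomputable section

open Vale.Agent.P234 Vale.Agent.P231 Vale.Agent.P231.Fm Vale.Agent.P231.W Vale.Agent.P231.WR
open Vale.Agent.P231.WF Vale.Agent.P231.H766 Vale.Agent.P231.S2N

variable {E : Type*} [NormedAddCommGroup E] [NormedSpace ℝ E]
  {M : Type*} [MetricSpace M] [ChartedSpace E M]
  [RiemannianBundle (fun x : M => TangentSpace 𝓘(ℝ, E) x)]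
  {e : ∀ x : M, TangentSpace 𝓘(ℝ, E) x → M}
  [FiniteDimensional ℝ E] [IsManifold 𝓘(ℝ, E) ∞ M]
  [IsContMDiffRiemannianBundle 𝓘(ℝ, E) ∞ E (fun x : M => TangentSpace 𝓘(ℝ, E) x)]
  [CompactSpace M] [ConnectedSpace M] [IsRiemannianManifold 𝓘(ℝ, E) M]

variable {D : ℝ} {ι : Type} [Fintype ι] [DecidableEq ι]

/-- the total space of the bundle of negative directions -/
@[ext]
structure Xi (F : Facts e) (D : ℝ) (X δ : ι → UT E M → E) (ε : ℝ) where
  /-- the geodesic -/
  v : UT E M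
  /-- the negative direction -/
  a : EuclideanSpace ℝ ι
  pm : Pm F D X δ ε v a = a

variable {F : Facts e} {hD : 0 < D} {hB : InjGE e D} {hdiam : ∀ p q : M, dist p q ≤ D}
  {l : ℕ} {X δ : ι → UT E M → E} {ε : ℝ}

/-- the diffeology of the total space -/
def dXi (F : Facts e) (D : ℝ) (X δ : ι → UT E M → E) (ε : ℝ) : Dif (Xi F D X δ ε) :=
  ((dUT E M).prod (Dif.lin (EuclideanSpace ℝ ι))).ind fun p => (p.v, p.a)

theorem map_Xi_v : (dXi F D X δ ε).Map (dUT E M) Xi.v := fun h => h.1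

theorem map_Xi_a : (dXi F D X δ ε).Map (Dif.lin (EuclideanSpace ℝ ι)) Xi.a := fun h => h.2

theorem at_const_Xi (p : Xi F D X δ ε) {V : Type} [NormedAddCommGroup V] [NormedSpace ℝ V]
    [FiniteDimensional ℝ V] (x : V) : (dXi F D X δ ε).At (fun _ : V => p) x :=
  ⟨H583.at_const p.v x, Sm.of_contDiff (contDiff_const (c := p.a)) _⟩

/-- scalar multiplication -/
def Xi.smul (c : ℝ) (p : Xi F D X δ ε) : Xi F D X δ ε where
  v := p.v
  a := c • p.a
  pm := by rw [map_smul, p.pm]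

@[simp] theorem Xi.smul_v (c : ℝ) (p : Xi F D X δ ε) : (Xi.smul c p).v = p.v := rfl

@[simp] theorem Xi.smul_a (c : ℝ) (p : Xi F D X δ ε) : (Xi.smul c p).a = c • p.a := rfl

theorem Xi.one_smul' (p : Xi F D X δ ε) : Xi.smul 1 p = p := Xi.ext rfl (one_smul ℝ p.a)

theorem Xi.smul_smul' (c c' : ℝ) (p : Xi F D X δ ε) :
    Xi.smul c (Xi.smul c' p) = Xi.smul (c * c') p := Xi.ext rfl (smul_smul c c' p.a)

theorem map_Xi_smul : ((dXi F D X δ ε).prod (Dif.lin ℝ)).Map (dXi F D X δ ε)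
    (fun q => Xi.smul q.2 q.1) := by
  intro E' _ _ _ u x hu
  have h1 : Sm (fun s => (u s).1.a) x := hu.1.2
  have h2 : Sm (fun s => (u s).2) x := hu.2
  refine ⟨hu.1.1, ?_⟩
  change Sm (fun s => (u s).2 • (u s).1.a) x
  filter_upwards [h1, h2] with s k1 k2 using k2.smul k1

/-! ### the flow -/

/-- the flow on the total space -/
def flXi (F : Facts e) (hD : 0 < D) (hB : InjGE e D) (hdiam : ∀ p q : M, dist p q ≤ D)
    (X δ : ι → UT E M → E) (ε : ℝ) (q : Xi F D X δ ε × ℝ) : Xi F D X δ ε where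
  v := phi F (q.1.v, q.2)
  a := q.1.a
  pm := by rw [Fam.Pm_phi F hD hB hdiam, q.1.pm]

@[simp] theorem flXi_v (F : Facts e) (hD : 0 < D) (hB : InjGE e D)
    (hdiam : ∀ p q : M, dist p q ≤ D) (X δ : ι → UT E M → E) (ε : ℝ) (q : Xi F D X δ ε × ℝ) :
    (flXi F hD hB hdiam X δ ε q).v = phi F (q.1.v, q.2) := rfl

@[simp] theorem flXi_a (F : Facts e) (hD : 0 < D) (hB : InjGE e D)
    (hdiam : ∀ p q : M, dist p q ≤ D) (X δ : ι → UT E M → E) (ε : ℝ) (q : Xi F D X δ ε × ℝ) :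
    (flXi F hD hB hdiam X δ ε q).a = q.1.a := rfl

theorem isFlow_flXi (F : Facts e) (hD : 0 < D) (hB : InjGE e D)
    (hdiam : ∀ p q : M, dist p q ≤ D) (X δ : ι → UT E M → E) (ε : ℝ) :
    IsFlow (dXi F D X δ ε) (2 * D) (flXi F hD hB hdiam X δ ε) where
  map := by
    intro E' _ _ _ u x hu
    exact ⟨map_phi F (u := fun s => ((u s).1.v, (u s).2)) ⟨hu.1.1, hu.2⟩, hu.1.2⟩
  zero p := Xi.ext (phi_zero F p.v) rfl
  add p s t := Xi.ext (phi_add F p.v s t) rfl
  per p := Xi.ext (W.phi_per F hD hB hdiam p.v) rfl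

/-- the circle action on the total space, of period one -/
def actXi (F : Facts e) (hD : 0 < D) (hB : InjGE e D) (hdiam : ∀ p q : M, dist p q ≤ D)
    (X δ : ι → UT E M → E) (ε : ℝ) : CAct (dXi F D X δ ε) where
  φ p t := flXi F hD hB hdiam X δ ε (p, 2 * D * t)
  smooth := fun {E'} _ _ _ {u x} hu =>
    (isFlow_flXi F hD hB hdiam X δ ε).map (map_scale (D := dXi F D X δ ε) (2 * D) hu)
  zero p := by rw [mul_zero, (isFlow_flXi F hD hB hdiam X δ ε).zero]
  add p s t := by rw [(isFlow_flXi F hD hB hdiam X δ ε).add, mul_add]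
  per p := by rw [mul_one, (isFlow_flXi F hD hB hdiam X δ ε).per]

/-! ### polar coordinates -/

variable (hP : ∀ x y : M, dist x y = D → finrank ℝ (H775.Pl e D x y) = l + 1)
  (h : Fam F hD hB hdiam l X δ ε)

include hP h in
/-- the second vector of a pair is the normalised boundary value of its coefficient vector -/
theorem nrm_Th0_ah (b : Pr e D) :
    S2N.nrm (foot b.v) (Th0 F hD hB hdiam (XX X (ah F hD hB hdiam X δ ε b)) b.v) = vec' b.w := by
  have h0 := ab_ne hP h b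
  have h3 : Th0 F hD hB hdiam (XX X (ah F hD hB hdiam X δ ε b)) b.v =
      ‖ab F hD hB hdiam X δ ε b‖⁻¹ • vec' b.w := by
    have k := h.Th0_am hP b.v b.isL.mem_Lf
    rw [Th0_XX] at k ⊢
    rw [← k, Finset.smul_sum]
    refine Finset.sum_congr rfl fun i _ => ?_
    unfold ah
    rw [PiLp.smul_apply, smul_eq_mul, mul_smul]
    rfl
  rw [h3, S2N.nrm_smul (inv_pos.2 (norm_pos_iff.2 h0))]
  exact nrm_of_one (Pr.nm_w b)

include hP h in
/-- a pair is determined by its first vector and its coefficient vector -/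
theorem pr_ext {b b' : Pr e D} (hv : b.v = b'.v)
    (ha : ah F hD hB hdiam X δ ε b = ah F hD hB hdiam X δ ε b') : b = b' := by
  refine Pr.ext' hv ?_
  have h1 := nrm_Th0_ah hP h b
  have h2 := nrm_Th0_ah hP h b'
  rw [ha, hv] at h1
  have h3 : vec' b.w = vec' b'.w := h1.symm.trans h2
  rw [← mk_eta b.w, ← mk_eta b'.w]
  refine mk_congr ?_ h3
  rw [b.isL.foot_eq, b'.isL.foot_eq, hv]

include hP h in
theorem map_ah : (dPr e D).Map (Dif.lin (EuclideanSpace ℝ ι)) (ah F hD hB hdiam X δ ε) := by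
  intro E' _ _ _ u x hu
  have h1 : (dUT E M).At (fun s => (u s).v) x := map_v hu
  have h2 : Sm (fun s => ab F hD hB hdiam X δ ε (u s)) x := h.sm_am hP h1 (at_w hu)
  change Sm (fun s => ah F hD hB hdiam X δ ε (u s)) x
  filter_upwards [h2] with s hs
  have k := ab_ne hP h (u s)
  exact ((hs.norm ℝ k).inv (norm_ne_zero_iff.2 k)).smul hs

/-- polar coordinates -/
def pol (q : Pr e D × ℝ) : Xi F D X δ ε where
  v := q.1.v
  a := q.2 • ah F hD hB hdiam X δ ε q.1
  pm := by rw [map_smul, Pm_ah hP h]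

@[simp] theorem pol_v (b : Pr e D) (R : ℝ) : (pol hP h (b, R)).v = b.v := rfl

theorem pol_a (b : Pr e D) (R : ℝ) :
    (pol hP h (b, R)).a = R • ah F hD hB hdiam X δ ε b := rfl

theorem norm_pol (b : Pr e D) {R : ℝ} (hR : 0 ≤ R) : ‖(pol hP h (b, R)).a‖ = R := by
  rw [pol_a, norm_smul, norm_ah hP h, mul_one, Real.norm_of_nonneg hR]

theorem map_pol : ((dPr e D).prod (Dif.lin ℝ)).Map (dXi F D X δ ε) (pol hP h) := by
  intro E' _ _ _ u x hu
  have h1 : Sm (fun s => ah F hD hB hdiam X δ ε (u s).1) x := map_ah hP h hu.1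
  have h2 : Sm (fun s => (u s).2) x := hu.2
  refine ⟨hu.1.1, ?_⟩
  change Sm (fun s => (u s).2 • ah F hD hB hdiam X δ ε (u s).1) x
  filter_upwards [h1, h2] with s k1 k2 using k2.smul k1

theorem pol_Lam (b : Pr e D) (R t : ℝ) : pol hP h (Lam hP h (b, t), R) =
    flXi F hD hB hdiam X δ ε (pol hP h (b, R), t) := by
  refine Xi.ext rfl ?_
  rw [pol_a, ah_Lam hP h]
  rfl

theorem smul_pol (c : ℝ) (b : Pr e D) (R : ℝ) :
    Xi.smul c (pol hP h (b, R)) = pol hP h (b, c * R) := by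
  refine Xi.ext rfl ?_
  rw [Xi.smul_a, pol_a, pol_a, smul_smul]

/-! ### the direction -/

include hP h in
theorem Th0_ne (p : Xi F D X δ ε) (hp : p.a ≠ 0) :
    Th0 F hD hB hdiam (XX X p.a) p.v ≠ 0 := fun h0 => hp (h.inj hP p.v p.pm h0)

/-- the direction of a nonzero vector -/
def dir (p : {p : Xi F D X δ ε // p.a ≠ 0}) : Pr e D :=
  ⟨(p.1.v, W.mk (foot p.1.v)
      (S2N.nrm (foot p.1.v) (Th0 F hD hB hdiam (XX X p.1.a) p.1.v))
      (nm_nrm (Th0_ne hP h p.1 p.2))),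
    (isL_iff F hD hB hdiam (v := p.1.v) (nm_nrm (Th0_ne hP h p.1 p.2))).1
      (Submodule.smul_mem _ _ (Th0_mem F hD hB hdiam _ p.1.v))⟩

@[simp] theorem dir_v (p : {p : Xi F D X δ ε // p.a ≠ 0}) : (dir hP h p).v = p.1.v := rfl

theorem dir_w (p : {p : Xi F D X δ ε // p.a ≠ 0}) : vec' (dir hP h p).w =
    S2N.nrm (foot p.1.v) (Th0 F hD hB hdiam (XX X p.1.a) p.1.v) := rfl

theorem ah_dir (p : {p : Xi F D X δ ε // p.a ≠ 0}) :
    ah F hD hB hdiam X δ ε (dir hP h p) = ‖p.1.a‖⁻¹ • p.1.a := by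
  have h1 : ab F hD hB hdiam X δ ε (dir hP h p) =
      (nm (foot p.1.v) (Th0 F hD hB hdiam (XX X p.1.a) p.1.v))⁻¹ • p.1.a := by
    unfold ab
    rw [dir_v, dir_w, S2N.nrm, am_smul, h.am_unique hP p.1.v p.1.pm rfl]
  unfold ah
  rw [h1]
  exact ah_smul_aux (inv_pos.2 (nm_pos' (Th0_ne hP h p.1 p.2))) _

/-- the polar coordinates of a nonzero vector -/
theorem pol_dir (p : {p : Xi F D X δ ε // p.a ≠ 0}) :
    pol hP h (dir hP h p, ‖p.1.a‖) = p.1 := by
  refine Xi.ext rfl ?_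
  rw [pol_a, ah_dir, smul_smul, mul_inv_cancel₀ (norm_ne_zero_iff.2 p.2), one_smul]

theorem pol_ne (b : Pr e D) {R : ℝ} (hR : 0 < R) : (pol hP h (b, R)).a ≠ 0 := by
  rw [← norm_pos_iff, norm_pol hP h b hR.le]
  exact hR

theorem dir_pol (b : Pr e D) {R : ℝ} (hR : 0 < R) :
    dir hP h ⟨pol hP h (b, R), pol_ne hP h b hR⟩ = b := by
  refine pr_ext hP h (b := dir hP h ⟨pol hP h (b, R), pol_ne hP h b hR⟩) rfl ?_
  rw [ah_dir]
  change ‖(pol hP h (b, R)).a‖⁻¹ • (pol hP h (b, R)).a = _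
  rw [norm_pol hP h b hR.le, pol_a, smul_smul, inv_mul_cancel₀ hR.ne', one_smul]

/-- two vectors over the same geodesic in the same direction have the same direction -/
theorem dir_congr {p q : {p : Xi F D X δ ε // p.a ≠ 0}} (hv : p.1.v = q.1.v)
    (ha : ‖p.1.a‖⁻¹ • p.1.a = ‖q.1.a‖⁻¹ • q.1.a) : dir hP h p = dir hP h q := by
  refine pr_ext hP h hv ?_
  rw [ah_dir, ah_dir, ha]

theorem flXi_ne (t : ℝ) (p : {p : Xi F D X δ ε // p.a ≠ 0}) :
    (flXi F hD hB hdiam X δ ε (p.1, t)).a ≠ 0 := p.2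

theorem Lam_dir (p : {p : Xi F D X δ ε // p.a ≠ 0}) (t : ℝ) :
    Lam hP h (dir hP h p, t) = dir hP h ⟨flXi F hD hB hdiam X δ ε (p.1, t), flXi_ne t p⟩ := by
  refine pr_ext hP h rfl ?_
  rw [ah_Lam, ah_dir, ah_dir]
  rfl

theorem at_Th0_XX {E' : Type} [NormedAddCommGroup E'] [NormedSpace ℝ E'] [FiniteDimensional ℝ E']
    (hP : ∀ x y : M, dist x y = D → finrank ℝ (H775.Pl e D x y) = l + 1)
    (h : Fam F hD hB hdiam l X δ ε) {u : E' → UT E M} {x : E'}
    (hu : (dUT E M).At u x) {c : E' → EuclideanSpace ℝ ι} (hc : Sm c x) :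
    (dTM E M).At (fun s => tb (foot (u s)) (Th0 F hD hB hdiam (XX X (c s)) (u s))) x := by
  have h1 : (dTM E M).At (fun s => tb (foot (u s))
      (∑ i, c s i • Th0 F hD hB hdiam (X i) (u s))) x :=
    at_sum' Finset.univ (f := fun s => foot (u s))
      (a := fun i s => c s i • Th0 F hD hB hdiam (X i) (u s)) (at_zero hu)
      fun i => at_smul (f := fun s => foot (u s)) (sm_coord hc i)
        ((fld_Th0 F hD hB hdiam hP (h.df i).fld).map hu)
  have h2 : (fun s => tb (foot (u s)) (Th0 F hD hB hdiam (XX X (c s)) (u s))) =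
      fun s => tb (foot (u s)) (∑ i, c s i • Th0 F hD hB hdiam (X i) (u s)) := by
    funext s
    rw [Th0_XX]
  rw [h2]
  exact h1

/-- the direction is smooth: plots which avoid the zero section -/
theorem at_dir {E' : Type} [NormedAddCommGroup E'] [NormedSpace ℝ E'] [FiniteDimensional ℝ E']
    {u : E' → {p : Xi F D X δ ε // p.a ≠ 0}} {x : E'}
    (hu : (dXi F D X δ ε).At (fun s => (u s).1) x) : (dPr e D).At (fun s => dir hP h (u s)) x := by
  have h1 : (dUT E M).At (fun s => (u s).1.v) x := hu.1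
  have h2 : Sm (fun s => (u s).1.a) x := hu.2
  have h3 := at_Th0_XX hP h h1 h2
  have h4 := at_nrm h3 (fun s => Th0_ne hP h (u s).1 (u s).2)
  exact ⟨h1, h4⟩

/-- the direction is smooth: plots with nonzero value at `x` -/
theorem exists_dir {E' : Type} [NormedAddCommGroup E'] [NormedSpace ℝ E']
    [FiniteDimensional ℝ E'] {u : E' → Xi F D X δ ε} {x : E'} (hu : (dXi F D X δ ε).At u x)
    (hx : (u x).a ≠ 0) : ∃ P : E' → Pr e D, (dPr e D).At P x ∧
      ∀ s, ∀ hs : (u s).a ≠ 0, P s = dir hP h ⟨u s, hs⟩ := by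
  classical
  let u' : E' → {p : Xi F D X δ ε // p.a ≠ 0} := fun s =>
    if hs : (u s).a ≠ 0 then ⟨u s, hs⟩ else ⟨u x, hx⟩
  have h1 : ∀ s, ∀ hs : (u s).a ≠ 0, u' s = ⟨u s, hs⟩ := fun s hs => dif_pos hs
  have h2 : Sm (fun s => (u s).a) x := hu.2
  have h3 : ∀ᶠ s in 𝓝 x, (u s).a ≠ 0 := h2.continuousAt.eventually_ne hx
  refine ⟨fun s => dir hP h (u' s), at_dir hP h ((dXi F D X δ ε).congr hu ?_),
    fun s hs => congrArg (dir hP h) (h1 s hs)⟩
  filter_upwards [h3] with s hs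
  rw [h1 s hs]

end

end Vale.Agent.P231.S3S
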