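import Vale.Agent.P231.S3S.Xi

/-!
# P231, stage 3, S3-STD: the standard family on the total space of the bundle of negative directions
-/

set_option maxSynthPendingDepth 3
set_option linter.unusedSectionVars false
set_option linter.unusedVariables false

open Bundle Manifold Set Filter Module MeasureTheory
open scoped ContDiff Manifold Topology ENNReal

namespace Vale.Agent.P231.S3S

noncomputable section

open Vale.Agent.P234 Vale.Agent.P231 Vale.Agent.P231.Fm Vale.Agent.P231.W Vale.Agent.P231.WR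
open Vale.Agent.P231.WF Vale.Agent.P231.H766 Vale.Agent.P231.S2N

variable {E : Type*} [NormedAddCommGroup E] [NormedSpace ℝ E]
  {M : Type*} [MetricSpace M] [ChartedSpace E M]
  [RiemannianBundle (fun x : M => TangentSpace 𝓘(ℝ, E) x)]
  {e : ∀ x : M, TangentSpace 𝓘(ℝ, E) x → M}
  [FiniteDimensional ℝ E] [IsManifold 𝓘(ℝ, E) ∞ M]
  [IsContMDiffRiemannianBundle 𝓘(ℝ, E) ∞ E (fun x : M => TangentSpace 𝓘(ℝ, E) x)]
  [CompactSpace M] [ConnectedSpace M] [IsRiemannianManifold 𝓘(ℝ, E) M]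

variable {D : ℝ} {ι : Type} [Fintype ι] [DecidableEq ι]

variable {F : Facts e} {hD : 0 < D} {hB : InjGE e D} {hdiam : ∀ p q : M, dist p q ≤ D}
  {l : ℕ} {X δ : ι → UT E M → E} {ε : ℝ}

/-- the linear push-off of a geodesic in the negative directions -/
def linX (e : ∀ x : M, TangentSpace 𝓘(ℝ, E) x → M) (X : ι → UT E M → E) (v : UT E M)
    (a : EuclideanSpace ℝ ι) : M := e (foot v) (XX X a v : E)

/-- **The standard family on the total space of the bundle of negative directions**: the linear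
push-off for `‖a‖ ≤ 2 r`, invariant and radially constant for `1 ≤ ‖a‖`, and all loops except those
of the zero section are shorter than `2 D` -/
structure StdX (F : Facts e) (hD : 0 < D) (hB : InjGE e D) (hdiam : ∀ p q : M, dist p q ≤ D)
    (X δ : ι → UT E M → E) (ε r : ℝ) (C : Xi F D X δ ε → M) : Prop where
  pos : 0 < r
  le : 12 * r ≤ 1
  map : (dXi F D X δ ε).Map (dM E M) C
  small : ∀ p : Xi F D X δ ε, ‖p.a‖ ≤ 2 * r → C p = linX e X p.v p.a
  large : ∀ p : Xi F D X δ ε, 1 ≤ ‖p.a‖ → ∀ c : ℝ, 1 ≤ c → C (Xi.smul c p) = C p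
  inv : ∀ (p : Xi F D X δ ε) (t : ℝ), 1 ≤ ‖p.a‖ → C (flXi F hD hB hdiam X δ ε (p, t)) = C p
  var : ∀ p : Xi F D X δ ε, p.a ≠ 0 →
    eVariationOn (fun t => C (flXi F hD hB hdiam X δ ε (p, t))) (Icc 0 (2 * D)) <
      ENNReal.ofReal (2 * D)

theorem var_gam_le (F : Facts e) (hD : 0 < D) (v : UT E M) :
    eVariationOn (gam e (foot v) (vec' v)) (Icc 0 (2 * D)) ≤ ENNReal.ofReal (2 * D) := by
  have h1 : LipschitzWith 1 (gam e (foot v) (vec' v)) := by
    refine LipschitzWith.of_dist_le_mul fun s t => ?_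
    have h2 := dist_exp_le F.isExp (foot v) (tt (foot v) (vec' v)) s t
    have h3 : ‖tt (foot v) (vec' v)‖ = 1 := nm_vec' v
    rw [h3, mul_one] at h2
    rw [NNReal.coe_one, one_mul, Real.dist_eq, abs_sub_comm]
    exact h2
  have h4 := h1.lipschitzOnWith (s := univ) |>.comp_eVariationOn_le
    (g := (id : ℝ → ℝ)) (s := Icc 0 (2 * D)) (fun _ _ => mem_univ _)
  have h5 : eVariationOn (id : ℝ → ℝ) (Icc 0 (2 * D)) ≤ ENNReal.ofReal (2 * D) := by
    have h6 : MonotoneOn (id : ℝ → ℝ) (Icc 0 (2 * D)) := monotone_id.monotoneOn _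
    have h7 := h6.eVariationOn_eq (a := 0) (b := 2 * D) (left_mem_Icc.2 (by linarith))
      (right_mem_Icc.2 (by linarith))
    rw [inter_self, id, id, sub_zero] at h7
    exact h7.le
  rw [ENNReal.coe_one, one_mul] at h4
  exact h4.trans h5

theorem StdX.zero {r : ℝ} {C : Xi F D X δ ε → M} (hC : StdX F hD hB hdiam X δ ε r C)
    (p : Xi F D X δ ε) (hp : p.a = 0) : C p = foot p.v := by
  rw [hC.small p (by rw [hp, norm_zero]; linarith [hC.pos])]
  unfold linX
  have h1 : XX X p.a p.v = 0 := by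
    have k := XX_smul X 0 p.a p.v
    rw [zero_smul, zero_smul, ← hp] at k
    exact k
  rw [h1]
  exact F.isExp.map_zero _

/-- the loops of the whole family have length at most `2 D` -/
theorem StdX.var_le {r : ℝ} {C : Xi F D X δ ε → M} (hC : StdX F hD hB hdiam X δ ε r C)
    (p : Xi F D X δ ε) :
    eVariationOn (fun t => C (flXi F hD hB hdiam X δ ε (p, t))) (Icc 0 (2 * D)) ≤
      ENNReal.ofReal (2 * D) := by
  by_cases hp : p.a = 0
  · have h1 : (fun t => C (flXi F hD hB hdiam X δ ε (p, t))) = gam e (foot p.v) (vec' p.v) := by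
      funext t
      exact hC.zero (flXi F hD hB hdiam X δ ε (p, t)) hp
    rw [h1]
    exact var_gam_le F hD p.v
  · exact (hC.var p hp).le

variable (hP : ∀ x y : M, dist x y = D → finrank ℝ (H775.Pl e D x y) = l + 1)
  (h : Fam F hD hB hdiam l X δ ε)

/-- the family on the total space with given polar form -/
def stdX (G : Pr e D × ℝ → M) (p : Xi F D X δ ε) : M :=
  open Classical in if hp : p.a ≠ 0 then G (dir hP h ⟨p, hp⟩, ‖p.a‖) else foot p.v

variable {G : Pr e D × ℝ → M} {r : ℝ}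

theorem stdX_ne (p : Xi F D X δ ε) (hp : p.a ≠ 0) :
    stdX hP h G p = G (dir hP h ⟨p, hp⟩, ‖p.a‖) := by
  unfold stdX
  rw [dif_pos hp]

theorem stdX_zero (p : Xi F D X δ ε) (hp : p.a = 0) : stdX hP h G p = foot p.v := by
  unfold stdX
  rw [dif_neg (not_not.2 hp)]

theorem XX_zero' (v : UT E M) : XX X 0 v = 0 := by
  have k := XX_smul X 0 0 v
  rw [zero_smul, zero_smul] at k
  exact k

include hP h in
theorem linX_zero (v : UT E M) : linX e X v 0 = foot v := by
  unfold linX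
  rw [XX_zero' v]
  exact F.isExp.map_zero _

variable (hG : StdP e (Lam hP h) (Yb F hD hB hdiam X δ ε) r G)

include hG in
theorem stdX_small (p : Xi F D X δ ε) (hp : ‖p.a‖ ≤ 2 * r) :
    stdX hP h G p = linX e X p.v p.a := by
  by_cases h0 : p.a = 0
  · rw [stdX_zero hP h p h0, h0, linX_zero hP h]
  · rw [stdX_ne hP h p h0, hG.small _ _ hp]
    unfold poP linX
    rw [dir_v]
    congr 1
    unfold Yb
    rw [ah_dir, dir_v]
    change ‖p.a‖ • XX X (‖p.a‖⁻¹ • p.a) p.v = XX X p.a p.v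
    rw [XX_smul, smul_smul, mul_inv_cancel₀ (norm_ne_zero_iff.2 h0), one_smul]

include hP h in
theorem map_linX {E' : Type} [NormedAddCommGroup E'] [NormedSpace ℝ E'] [FiniteDimensional ℝ E']
    {u : E' → UT E M} {x : E'} (hu : (dUT E M).At u x) {c : E' → EuclideanSpace ℝ ι}
    (hc : Sm c x) : (dM E M).At (fun s => linX e X (u s) (c s)) x := by
  have h1 := at_XX (fun i => (h.df i).fld) hu hc
  change ∀ᶠ s in 𝓝 x, H775.SmV (fun s => foot (u s)) (fun s => (XX X (c s) (u s) : E)) s at h1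
  change ∀ᶠ s in 𝓝 x, ContMDiffAt _ _ _ _ _
  filter_upwards [h1] with s hs1
  exact hs1.exp F.isExp

include hG in
theorem map_stdX : (dXi F D X δ ε).Map (dM E M) (stdX hP h G) := by
  intro E' _ _ _ u x hu
  have h1 : (dUT E M).At (fun s => (u s).v) x := map_Xi_v hu
  have h2 : Sm (fun s => (u s).a) x := map_Xi_a hu
  by_cases hx : (u x).a = 0
  · refine (dM E M).congr (map_linX hP h h1 h2) ?_
    have h3 : ∀ᶠ s in 𝓝 x, ‖(u s).a‖ < 2 * r := by
      refine h2.continuousAt.norm.eventually_lt_const ?_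
      change ‖(u x).a‖ < 2 * r
      rw [hx, norm_zero]
      linarith [hG.pos]
    filter_upwards [h3] with s hs
    exact (stdX_small hP h hG (u s) hs.le).symm
  · obtain ⟨P, hP1, hP2⟩ := exists_dir hP h hu hx
    have h4 : Sm (fun s => ‖(u s).a‖) x := by
      have h5 : ∀ᶠ s in 𝓝 x, (u s).a ≠ 0 := h2.continuousAt.eventually_ne hx
      filter_upwards [h2, h5] with s k1 k2 using k1.norm ℝ k2
    refine (dM E M).congr (hG.map (u := fun s => (P s, ‖(u s).a‖)) ⟨hP1, h4⟩) ?_
    filter_upwards [h2.continuousAt.eventually_ne hx] with s hs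
    change G (P s, ‖(u s).a‖) = stdX hP h G (u s)
    rw [stdX_ne hP h (u s) hs, hP2 s hs]

theorem stdX_pol_pos (b : Pr e D) {R : ℝ} (hR : 0 < R) :
    stdX hP h G (pol hP h (b, R)) = G (b, R) := by
  rw [stdX_ne hP h _ (pol_ne hP h b hR), dir_pol hP h b hR, norm_pol hP h b hR.le]

include hG in
theorem stdX_pol (b : Pr e D) {R : ℝ} (hR : 0 ≤ R) :
    stdX hP h G (pol hP h (b, R)) = G (b, R) := by
  rcases hR.lt_or_eq with h1 | h1
  · exact stdX_pol_pos hP h b h1
  · have h2 : (pol hP h (b, R)).a = 0 := by rw [pol_a, ← h1, zero_smul]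
    rw [stdX_zero hP h _ h2, hG.small b R (by rw [← h1]; linarith [hG.pos]), ← h1, poP_zero F]
    rfl

theorem stdX_fl (p : {p : Xi F D X δ ε // p.a ≠ 0}) (t : ℝ) :
    stdX hP h G (flXi F hD hB hdiam X δ ε (p.1, t)) = G (Lam hP h (dir hP h p, t), ‖p.1.a‖) := by
  rw [stdX_ne hP h _ (flXi_ne t p), Lam_dir]
  rfl

include hG in
/-- **S3-STD**: the standard family on the total space -/
theorem StdP.stdX : StdX F hD hB hdiam X δ ε r (stdX hP h G) where
  pos := hG.pos
  le := hG.le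
  map := map_stdX hP h hG
  small := stdX_small hP h hG
  large p hp c hc := by
    have h0 : p.a ≠ 0 := by
      intro h1
      rw [h1, norm_zero] at hp
      linarith
    have hc0 : 0 < c := by linarith
    have h1 : (Xi.smul c p).a ≠ 0 := smul_ne_zero hc0.ne' h0
    have h2 : ‖(Xi.smul c p).a‖ = c * ‖p.a‖ := by
      rw [Xi.smul_a, norm_smul, Real.norm_of_nonneg hc0.le]
    have h3 : dir hP h ⟨Xi.smul c p, h1⟩ = dir hP h ⟨p, h0⟩ := by
      refine dir_congr hP h rfl ?_
      change ‖(Xi.smul c p).a‖⁻¹ • (Xi.smul c p).a = ‖p.a‖⁻¹ • p.a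
      rw [h2, Xi.smul_a, smul_smul, mul_inv, mul_comm c⁻¹, mul_assoc, inv_mul_cancel₀ hc0.ne',
        mul_one]
    rw [stdX_ne hP h _ h1, stdX_ne hP h _ h0, h3, h2, hG.large _ _ hp,
      hG.large _ (c * ‖p.a‖) (by nlinarith)]
  inv p t hp := by
    have h0 : p.a ≠ 0 := by
      intro h1
      rw [h1, norm_zero] at hp
      linarith
    rw [stdX_fl hP h ⟨p, h0⟩ t, stdX_ne hP h _ h0, hG.inv _ _ _ hp]
  var p hp := by
    have h1 : (fun t => S3S.stdX hP h G (flXi F hD hB hdiam X δ ε (p, t))) =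
        fun t => G (Lam hP h (dir hP h ⟨p, hp⟩, t), ‖p.a‖) :=
      funext fun t => stdX_fl hP h ⟨p, hp⟩ t
    rw [h1]
    exact hG.var _ _ (norm_pos_iff.2 hp)

/-- uniform margins pass to the total space -/
theorem stdX_margin {s m : ℝ} (hs : 0 < s) (hm : ∀ b R, s ≤ R →
    eVariationOn (fun t => G (Lam hP h (b, t), R)) (Icc 0 (2 * D)) ≤ ENNReal.ofReal m)
    (p : Xi F D X δ ε) (hp : s ≤ ‖p.a‖) :
    eVariationOn (fun t => S3S.stdX hP h G (flXi F hD hB hdiam X δ ε (p, t))) (Icc 0 (2 * D)) ≤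
      ENNReal.ofReal m := by
  have h0 : p.a ≠ 0 := norm_pos_iff.1 (hs.trans_le hp)
  have h1 : (fun t => S3S.stdX hP h G (flXi F hD hB hdiam X δ ε (p, t))) =
      fun t => G (Lam hP h (dir hP h ⟨p, h0⟩, t), ‖p.a‖) :=
    funext fun t => stdX_fl hP h ⟨p, h0⟩ t
  rw [h1]
  exact hm _ _ hp

end

end Vale.Agent.P231.S3S
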