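import Vale.Agent.P231.S3S.Std
import Vale.Agent.P231.H766.D4

/-!
# P231, stage 3, S3-STD: the transgression of the standard family

The relations `PushL.exists_g` and `PushL.exists_b1` hold for every standard family with small
radius.
-/

set_option maxSynthPendingDepth 3
set_option linter.unusedSectionVars false
set_option linter.unusedVariables false

open Bundle Manifold Set Filter Module MeasureTheory
open scoped ContDiff Manifold Topology ENNReal

namespace Vale.Agent.P231.S3S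

noncomputable section

open Vale.Agent.P234 Vale.Agent.P231 Vale.Agent.P231.Fm Vale.Agent.P231.W Vale.Agent.P231.WR
  Vale.Agent.P231.WF Vale.Agent.P231.WD Vale.Agent.P231.H584 Vale.Agent.P231.H766
  Vale.Agent.P231.S2N

/-! ### reparametrisation -/

section Rep

variable {X : Type*} {D : Dif X}

/-- the primitive does not change under a reparametrisation of the interval -/
theorem K_rep_id {β : ℝ → ℝ} (hβ : ContDiff ℝ ∞ β) (h0 : β 0 = 0) (h1 : β 1 = 1)
    (w : Form (D.prod (Dif.lin ℝ))) :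
    Form.K (Form.pull (fun p : X × ℝ => (p.1, β p.2)) (map_rep hβ) w) = Form.K w :=
  Form.ext_val fun E _ _ _ u x h => by
    rw [K_rep_val hβ w h, h0, h1, K_val' _ h]

/-- forms with the same reparametrisation have the same primitive -/
theorem K_of_rep {β : ℝ → ℝ} (hβ : ContDiff ℝ ∞ β) (h0 : β 0 = 0) (h1 : β 1 = 1)
    {w w' : Form (D.prod (Dif.lin ℝ))}
    (h : Form.pull (fun p : X × ℝ => (p.1, β p.2)) (map_rep hβ) w =
      Form.pull (fun p : X × ℝ => (p.1, β p.2)) (map_rep hβ) w') : Form.K w = Form.K w' := by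
  rw [← K_rep_id hβ h0 h1 w, h, K_rep_id hβ h0 h1 w']

end Rep

/-- the parameter of the contraction -/
def fpar (r s : ℝ) : ℝ := 2 * r * H766.stp (2 * s) + (1 - 2 * r) * Real.smoothTransition (2 * s - 1)

theorem contDiff_fpar (r : ℝ) : ContDiff ℝ ∞ (fpar r) := by
  unfold fpar
  have h1 : ContDiff ℝ ∞ (fun s : ℝ => H766.stp (2 * s)) :=
    stp_contDiff.comp (contDiff_const.mul contDiff_id)
  have h2 : ContDiff ℝ ∞ (fun s : ℝ => Real.smoothTransition (2 * s - 1)) :=
    Real.smoothTransition.contDiff.comp ((contDiff_const.mul contDiff_id).sub contDiff_const)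
  exact (contDiff_const.mul h1).add (contDiff_const.mul h2)

theorem fpar_zero (r : ℝ) : fpar r 0 = 0 := by
  unfold fpar
  rw [stp_of_le (by norm_num), Real.smoothTransition.zero_of_nonpos (by norm_num)]
  ring

theorem fpar_one (r : ℝ) : fpar r 1 = 1 := by
  unfold fpar
  rw [stp_of_ge (by norm_num), Real.smoothTransition.one_of_one_le (by norm_num)]
  ring

theorem fpar_nonneg {r : ℝ} (hr : 0 < r) (hr1 : 12 * r ≤ 1) (s : ℝ) : 0 ≤ fpar r s := by
  unfold fpar
  have h1 := stp_nonneg (2 * s)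
  have h2 := Real.smoothTransition.nonneg (2 * s - 1)
  have h3 : 0 ≤ 2 * r * H766.stp (2 * s) := by positivity
  have h4 : 0 ≤ (1 - 2 * r) * Real.smoothTransition (2 * s - 1) :=
    mul_nonneg (by linarith) h2
  linarith

variable {E : Type*} [NormedAddCommGroup E] [NormedSpace ℝ E]
  {M : Type*} [MetricSpace M] [ChartedSpace E M]
  [RiemannianBundle (fun x : M => TangentSpace 𝓘(ℝ, E) x)]
  {e : ∀ x : M, TangentSpace 𝓘(ℝ, E) x → M}
  [FiniteDimensional ℝ E] [IsManifold 𝓘(ℝ, E) ∞ M]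
  [IsContMDiffRiemannianBundle 𝓘(ℝ, E) ∞ E (fun x : M => TangentSpace 𝓘(ℝ, E) x)]
  [CompactSpace M] [ConnectedSpace M] [IsRiemannianManifold 𝓘(ℝ, E) M]

variable {D : ℝ}

/-- the contraction part of the standard family -/
def Hs (r : ℝ) (G : Pr e D × ℝ → M) (b : Pr e D) (u : ℝ) : M :=
  G (b, 2 * r + (1 - 2 * r) * Real.smoothTransition u)

section Main

variable {F : Facts e} {hD : 0 < D} {hB : InjGE e D} {hdiam : ∀ p q : M, dist p q ≤ D}
  {Lam : Pr e D × ℝ → Pr e D} {Y : Pr e D → E} {ε₀ r : ℝ} {G : Pr e D × ℝ → M}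

theorem Hs_le (hG : StdP e Lam Y r G) (b : Pr e D) (u : ℝ) (hu : u ≤ 0) :
    Hs r G b u = poP e Y (2 * r) b := by
  unfold Hs
  rw [Real.smoothTransition.zero_of_nonpos hu, mul_zero, add_zero, hG.small _ _ le_rfl]

theorem gg_eq (hG : StdP e Lam Y r G) (b : Pr e D) (s : ℝ) :
    gg (fun p : Pr e D × ℝ => poP e Y p.2 p.1) (2 * r) (Hs r G) (b, s) = G (b, fpar r s) := by
  unfold gg
  split_ifs with h
  · simp only at h ⊢
    unfold fpar
    rw [Real.smoothTransition.zero_of_nonpos (by linarith), mul_zero, add_zero,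
      hG.small _ _ (by
        have := stp_le_one (2 * s)
        nlinarith [hG.pos])]
  · simp only at h ⊢
    unfold fpar Hs
    rw [stp_of_ge (by linarith), mul_one]

theorem map_Hs (hG : StdP e Lam Y r G) :
    ((dPr e D).prod (Dif.lin ℝ)).Map (dM E M) (fun p => Hs r G p.1 p.2) := by
  intro E' _ _ _ u x hu
  have h1 : Sm (fun s => 2 * r + (1 - 2 * r) * Real.smoothTransition (u s).2) x := by
    refine Sm.comp (f := fun y : ℝ => 2 * r + (1 - 2 * r) * Real.smoothTransition y)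
      (g := fun s => (u s).2) (Sm.of_contDiff ?_ _) hu.2
    exact contDiff_const.add (contDiff_const.mul Real.smoothTransition.contDiff)
  exact hG.map (u := fun s => ((u s).1, 2 * r + (1 - 2 * r) * Real.smoothTransition (u s).2))
    ⟨hu.1, h1⟩

/-- **the transgression of the standard family** -/
theorem exists_g_std (P : PushL F hD hB hdiam Lam Y ε₀) {l : ℕ}
    (hP : ∀ x y : M, dist x y = D → finrank ℝ (H775.Pl e D x y) = l + 1) :
    ∃ ε₁ : ℝ, 0 < ε₁ ∧ ∀ (r : ℝ) (G : Pr e D × ℝ → M) (hG : StdP e Lam Y r G), 2 * r ≤ ε₁ →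
      ∀ W : Form (dM E M), W.d = 0 → ∃ l : Form (dPr e D),
        J Lam P.flow.map (2 * D) (Form.K (Form.pull G hG.map W)) =
          -KT Real.pi (Form.pull (cv e D) (map_cv F hD hB hdiam) (WR.B0 F D W)) + l.d := by
  obtain ⟨ε₁, hε₁, hA, hBd⟩ := apex_unif F hD hB hdiam (pc_Pr F hD hB hdiam hP) P.flow P.v P.half
    P.fld P.sgn
  refine ⟨ε₁, hε₁, fun r G hG hr W hW => ?_⟩
  have h2D : 0 < 2 * D := by linarith
  set ε : ℝ := 2 * r with hεr
  have hε : 0 < ε := by have := hG.pos; positivity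
  have hPm : ((dPr e D).prod (Dif.lin ℝ)).Map (dM E M)
      (fun p : Pr e D × ℝ => poP e Y p.2 p.1) := map_poP F P.fld
  have hH' : ((dPr e D).prod (Dif.lin ℝ)).Map (dM E M)
      (fun p : Pr e D × ℝ => Hs r G p.1 p.2) := map_Hs hG
  have hZ : (((dPr e D).prod (Dif.lin ℝ)).prod (Dif.lin ℝ)).Map (dM E M)
      (fun p : (Pr e D × ℝ) × ℝ => apx e Y p.1.1 p.1.2 p.2) := map_apx F P.fld
  have h0' : ∀ b u, u ≤ 0 → Hs r G b u =
      (fun p : Pr e D × ℝ => poP e Y p.2 p.1) (b, ε) := Hs_le hG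
  have hlen : ∀ b u, eVariationOn (fun t => Hs r G (Lam (b, t)) u) (Icc 0 (2 * D)) <
      ENNReal.ofReal (2 * D) := fun b u => hG.var b _ (by
    have h1 := Real.smoothTransition.nonneg u
    have h2 := hG.pos
    have h3 : 0 ≤ (1 - 2 * r) * Real.smoothTransition u :=
      mul_nonneg (by linarith [hG.le]) h1
    linarith)
  set γ := gg (fun p : Pr e D × ℝ => poP e Y p.2 p.1) ε (Hs r G) with hγdef
  have hγ : ((dPr e D).prod (Dif.lin ℝ)).Map (dM E M) γ := gg_map hPm hH' h0'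
  set ap := apP (fun p : (Pr e D × ℝ) × ℝ => apx e Y p.1.1 p.1.2 p.2) γ (D / 2) ε with hapdef
  have hap : ((dPr e D).prod (Dif.lin ℝ)).Map (dM E M) ap :=
    apP_map hZ hPm hH' h0' (fun b => apx_zero_left Y b ε)
  have hγ0 : ∀ b, γ (b, 0) = foot b.v := fun b => (gg_zero b).trans (poP_zero F Y b)
  have hγe : ∀ b s, γ (b, s) = G (b, fpar r s) := gg_eq hG
  have hγ1 : ∀ b t, γ (Lam (b, t), 1) = γ (b, 1) := fun b t => by
    rw [hγe, hγe, fpar_one, hG.inv b t 1 le_rfl]
  have hap0 : ∀ b, ap (b, 0) = gm e (b.w, D / 2) := fun b =>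
    (apP_zero b).trans ((apx_zero_right Y b (D / 2)).trans (e_foot_w b (D / 2)))
  have hdist : ∀ b t r, dist (ap (b, r)) (γ (Lam (b, t), r)) < D := by
    intro b t r'
    refine apP_dist (δ := D) P.flow h2D hε (by linarith) h0' (fun b u => ?_)
      (fun b s hs t => hA ε ⟨hε, hr⟩ b s hs t)
      (fun ε₁' h1' ε₂' h2' b t => hBd ε₁' ⟨h1'.1, h1'.2.trans hr⟩ ε₂'
        ⟨h2'.1, h2'.2.trans hr⟩ b t) b t r'
    refine (hlen b u).trans_le (le_of_eq ?_)
    rw [ENNReal.ofReal_mul zero_le_two, ENNReal.ofReal_ofNat]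
  have hK : Form.K (Form.pull G hG.map W) = Form.K (Form.pull γ hγ W) := by
    rw [← K_rep_id (contDiff_fpar r) (fpar_zero r) (fpar_one r) (Form.pull G hG.map W)]
    congr 1
    exact H584.pull_pull (map_rep (contDiff_fpar r)) hG.map hγ
      (fun p => (hγe p.1 p.2).symm) W
  have hc : (((dPr e D).prod (Dif.lin ℝ)).prod (Dif.lin ℝ)).Map (dM E M)
      (fun p => WD3.gG e (ap (p.1.1, 0)) (γ (Lam p.1, 0)) p.2) :=
    fun {E'} _ _ _ {u x} h => (WD3.geoM F hB).smooth
      (map_at hap 0 h.1.1) (map_at hγ 0 (P.flow.map h.1)) h.2 (hdist (u x).1.1 (u x).1.2 0)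
  obtain ⟨l₁, hl₁⟩ := transg_cone (WD3.geoM F hB) hW P.flow hγ hap hdist hγ1 hc
  have efun : (fun p : (Pr e D × ℝ) × ℝ => WD3.gG e (ap (p.1.1, 0)) (γ (Lam p.1, 0)) p.2) =
      fun p => WD3.gG e (gm e (p.1.1.w, D / 2)) (gm e (p.1.1.v, p.1.2)) p.2 := by
    funext p
    rw [hap0, hγ0, P.v, foot_phi]
  have hc' : (((dPr e D).prod (Dif.lin ℝ)).prod (Dif.lin ℝ)).Map (dM E M)
      (fun p => WD3.gG e (gm e (p.1.1.w, D / 2)) (gm e (p.1.1.v, p.1.2)) p.2) := by
    rw [← efun]
    exact hc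
  obtain ⟨l₂, hl₂⟩ := cone_geo F hD hB hdiam hW hc'
  have e3 : Form.pull (fun p : (Pr e D × ℝ) × ℝ =>
      (WD3.geoM F hB).G (ap (p.1.1, 0)) (γ (Lam p.1, 0)) p.2) hc W =
      Form.pull (fun p => WD3.gG e (gm e (p.1.1.w, D / 2)) (gm e (p.1.1.v, p.1.2)) p.2) hc' W :=
    Form.pull_congr _ _ efun W
  refine ⟨l₁ - l₂, ?_⟩
  rw [hK, hl₁, e3, hl₂, Form.d_sub]
  abel

/-- the relation `b₁ = - b₀` for a form whose transgression is known -/
theorem b1_of_g (P : PushL F hD hB hdiam Lam Y ε₀) {W : Form (dM E M)} {X : Form (dPr e D)}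
    (hX : ∃ l : Form (dPr e D), J Lam P.flow.map (2 * D) X =
      -KT Real.pi (Form.pull (cv e D) (map_cv F hD hB hdiam) (WR.B0 F D W)) + l.d) :
    ∃ l : Form (dPr e D), J Lam P.flow.map (2 * D) (X -
      Form.pull (Th F hD hB hdiam) (map_Th F hD hB hdiam) X) =
        (-1 : ℝ) • J (R F hD hB hdiam) (isFlow_R F hD hB hdiam).map (2 * Real.pi)
          (Form.pull Pr.v map_v (WR.B0 F D W)) + l.d := by
  obtain ⟨m, hm⟩ := hX
  set h' := KT Real.pi (Form.pull (cv e D) (map_cv F hD hB hdiam) (WR.B0 F D W)) with hh'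
  set ρ := ngP F hD hB hdiam with hρ
  -- the transported transgression
  have e1 : J Lam P.flow.map (2 * D) (Form.pull (Th F hD hB hdiam) (map_Th F hD hB hdiam) X) =
      Form.pull (Th F hD hB hdiam) (map_Th F hD hB hdiam) (J Lam P.flow.map (2 * D) X) :=
    (pull_J P.flow.map P.flow.map (map_Th F hD hB hdiam) P.Th_Lam (2 * D) X).symm
  have e2 : Form.pull (Th F hD hB hdiam) (map_Th F hD hB hdiam) (J Lam P.flow.map (2 * D) X) =
      Form.pull ρ (map_ngP F hD hB hdiam) (J Lam P.flow.map (2 * D) X) := by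
    have hbas : Basic Lam P.flow.map
        (Form.pull ρ (map_ngP F hD hB hdiam) (J Lam P.flow.map (2 * D) X)) := by
      rw [pull_J P.flow.map P.flow.map (map_ngP F hD hB hdiam)
        (fun b t => (P.neg b t).symm) (2 * D) X]
      exact J_basic P.flow _
    have e3 := congrArg (at_ D) hbas
    rw [at_pr, at_pull_of P.flow.map D] at e3
    rw [← e3]
    exact (H584.pull_pull (map_at P.flow.map D) (map_ngP F hD hB hdiam)
      (map_Th F hD hB hdiam) (fun b => (P.Th_eq b).symm) _).symm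
  refine ⟨m - Form.pull ρ (map_ngP F hD hB hdiam) m, ?_⟩
  rw [J_sub, e1, e2, hm, J_R_eq]
  have e4 : Form.pull ρ (map_ngP F hD hB hdiam) (-h' + m.d) =
      -Form.pull ρ (map_ngP F hD hB hdiam) h' + (Form.pull ρ (map_ngP F hD hB hdiam) m).d := by
    rw [← Form.pull_d]
    have h1 := map_add (Form.pullA ρ (map_ngP F hD hB hdiam)) (-h') m.d
    have h2 := map_neg (Form.pullA ρ (map_ngP F hD hB hdiam)) h'
    rw [h2] at h1
    exact h1
  rw [e4, Form.d_sub, neg_one_smul]
  abel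

end Main

/-! ### the standard family on the total space, in polar coordinates -/

section Polar

variable {ι : Type} [Fintype ι] [DecidableEq ι]
  {F : Facts e} {hD : 0 < D} {hB : InjGE e D} {hdiam : ∀ p q : M, dist p q ≤ D}
  {l : ℕ} {X δ : ι → UT E M → E} {ε : ℝ}
  (hP : ∀ x y : M, dist x y = D → finrank ℝ (H775.Pl e D x y) = l + 1)
  (h : S2N.Fam F hD hB hdiam l X δ ε) {G : Pr e D × ℝ → M} {r : ℝ}

/-- the standard family in polar coordinates -/
def polX (G : Pr e D × ℝ → M) (q : Pr e D × ℝ) : M := stdX hP h G (pol hP h q)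

variable (hG : StdP e (Lam hP h) (Yb F hD hB hdiam X δ ε) r G)

include hG in
theorem map_polX : ((dPr e D).prod (Dif.lin ℝ)).Map (dM E M) (polX hP h G) :=
  fun {E'} _ _ _ {u x} hu => map_stdX hP h hG (map_pol hP h hu)

include hG in
theorem polX_eq (b : Pr e D) {R : ℝ} (hR : 0 ≤ R) : polX hP h G (b, R) = G (b, R) :=
  stdX_pol hP h hG b hR

include hG in
theorem polX_zero (b : Pr e D) : polX hP h G (b, 0) = foot b.v := by
  rw [polX_eq hP h hG b le_rfl, hG.small b 0 (by linarith [hG.pos]), poP_zero F]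

include hG in
theorem polX_one (b : Pr e D) (t : ℝ) :
    polX hP h G (Lam hP h (b, t), 1) = polX hP h G (b, 1) := by
  rw [polX_eq hP h hG _ zero_le_one, polX_eq hP h hG _ zero_le_one, hG.inv b t 1 le_rfl]

include hG in
/-- forms on `M` have the same primitive along the standard family and along its polar form -/
theorem K_polX (W : Form (dM E M)) :
    Form.K (Form.pull (polX hP h G) (map_polX hP h hG) W) = Form.K (Form.pull G hG.map W) := by
  refine K_of_rep (contDiff_fpar r) (fpar_zero r) (fpar_one r) ?_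
  have hk : ((dPr e D).prod (Dif.lin ℝ)).Map (dM E M) (fun p => G (p.1, fpar r p.2)) :=
    fun h => hG.map (map_rep (contDiff_fpar r) h)
  refine (H584.pull_pull (map_rep (contDiff_fpar r)) (map_polX hP h hG) hk
    (fun p => polX_eq hP h hG p.1 (fpar_nonneg hG.pos hG.le p.2)) W).trans ?_
  exact (H584.pull_pull (map_rep (contDiff_fpar r)) hG.map hk (fun p => rfl) W).symm

/-- **S3-STD, transgression**: the relation `b₁ = - b₀` for the standard family -/
theorem exists_b1_std {ε₀ : ℝ}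
    (P : PushL F hD hB hdiam (Lam hP h) (Yb F hD hB hdiam X δ ε) ε₀) :
    ∃ ε₁ : ℝ, 0 < ε₁ ∧ ∀ (r : ℝ) (G : Pr e D × ℝ → M)
      (hG : StdP e (Lam hP h) (Yb F hD hB hdiam X δ ε) r G), 2 * r ≤ ε₁ →
      ∀ W : Form (dM E M), W.d = 0 → ∃ l : Form (dPr e D),
        J (Lam hP h) P.flow.map (2 * D) (Form.K (Form.pull (polX hP h G) (map_polX hP h hG) W) -
          Form.pull (Th F hD hB hdiam) (map_Th F hD hB hdiam)
            (Form.K (Form.pull (polX hP h G) (map_polX hP h hG) W))) =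
        (-1 : ℝ) • J (R F hD hB hdiam) (isFlow_R F hD hB hdiam).map (2 * Real.pi)
          (Form.pull Pr.v map_v (WR.B0 F D W)) + l.d := by
  obtain ⟨ε₁, h1, h2⟩ := exists_g_std P hP
  refine ⟨ε₁, h1, fun r G hG hr W hW => ?_⟩
  rw [K_polX hP h hG]
  exact b1_of_g P (h2 r G hG hr W hW)

end Polar

end

end Vale.Agent.P231.S3S
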