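import Vale.Agent.P231.H766.SL3

/-!
# P231, stage 3, S3-STD: the standard family over the space of pairs

`StdP … r G` says that `G : Pr e D × ℝ → M` is the standard family over the space of pairs: it is
the linear push-off `e (foot b.v) (R • Y b)` for `R ≤ 2 r`, it is independent of `R` and invariant
for `R ≥ 1`, and for all `R > 0` its loops are shorter than `2 D`.
-/

set_option maxSynthPendingDepth 3
set_option linter.unusedSectionVars false
set_option linter.unusedVariables false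

open Bundle Manifold Set Filter Module MeasureTheory
open scoped ContDiff Manifold Topology ENNReal

namespace Vale.Agent.P231.S3S

noncomputable section

open Vale.Agent.P234 Vale.Agent.P231 Vale.Agent.P231.Fm Vale.Agent.P231.W Vale.Agent.P231.WR
open Vale.Agent.P231.WF Vale.Agent.P231.H766

/-! ### the radial parameter -/

/-- the radial parameter: the identity for `R ≤ 2 r`, equal to `3 r` for `3 r ≤ R` -/
def rho (r R : ℝ) : ℝ := R + Real.smoothTransition ((R - 2 * r) / r) * (3 * r - R)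

theorem contDiff_rho (r : ℝ) : ContDiff ℝ ∞ (rho r) := by
  unfold rho
  have h1 : ContDiff ℝ ∞ (fun R : ℝ => Real.smoothTransition ((R - 2 * r) / r)) :=
    Real.smoothTransition.contDiff.comp ((contDiff_id.sub contDiff_const).div_const _)
  exact contDiff_id.add (h1.mul (contDiff_const.sub contDiff_id))

theorem rho_of_le {r R : ℝ} (hr : 0 < r) (h : R ≤ 2 * r) : rho r R = R := by
  unfold rho
  rw [Real.smoothTransition.zero_of_nonpos (div_nonpos_of_nonpos_of_nonneg (by linarith) hr.le),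
    zero_mul, add_zero]

theorem rho_of_ge {r R : ℝ} (hr : 0 < r) (h : 3 * r ≤ R) : rho r R = 3 * r := by
  unfold rho
  have h1 : 1 ≤ (R - 2 * r) / r := by
    rw [one_le_div hr]
    linarith
  rw [Real.smoothTransition.one_of_one_le h1]
  ring

theorem rho_pos {r R : ℝ} (hr : 0 < r) (h : 0 < R) : 0 < rho r R := by
  rcases le_total (3 * r) R with h1 | h1
  · rw [rho_of_ge hr h1]
    positivity
  · unfold rho
    have h2 := Real.smoothTransition.nonneg ((R - 2 * r) / r)
    have h3 : 0 ≤ Real.smoothTransition ((R - 2 * r) / r) * (3 * r - R) :=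
      mul_nonneg h2 (by linarith)
    linarith

theorem rho_le {r R : ℝ} (hr : 0 < r) : rho r R ≤ 3 * r := by
  rcases le_total (3 * r) R with h1 | h1
  · rw [rho_of_ge hr h1]
  · unfold rho
    have h2 := Real.smoothTransition.le_one ((R - 2 * r) / r)
    have h3 : Real.smoothTransition ((R - 2 * r) / r) * (3 * r - R) ≤ 1 * (3 * r - R) :=
      mul_le_mul_of_nonneg_right h2 (by linarith)
    linarith

variable {E : Type*} [NormedAddCommGroup E] [NormedSpace ℝ E]
  {M : Type*} [MetricSpace M] [ChartedSpace E M]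
  [RiemannianBundle (fun x : M => TangentSpace 𝓘(ℝ, E) x)]
  {e : ∀ x : M, TangentSpace 𝓘(ℝ, E) x → M}
  [FiniteDimensional ℝ E] [IsManifold 𝓘(ℝ, E) ∞ M]
  [IsContMDiffRiemannianBundle 𝓘(ℝ, E) ∞ E (fun x : M => TangentSpace 𝓘(ℝ, E) x)]
  [CompactSpace M] [ConnectedSpace M] [IsRiemannianManifold 𝓘(ℝ, E) M]

variable {D : ℝ}

/-- **The standard family over the space of pairs** -/
structure StdP (e : ∀ x : M, TangentSpace 𝓘(ℝ, E) x → M) (Lam : Pr e D × ℝ → Pr e D)
    (Y : Pr e D → E) (r : ℝ) (G : Pr e D × ℝ → M) : Prop where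
  pos : 0 < r
  le : 12 * r ≤ 1
  map : ((dPr e D).prod (Dif.lin ℝ)).Map (dM E M) G
  small : ∀ b R, R ≤ 2 * r → G (b, R) = poP e Y R b
  large : ∀ b R, 1 ≤ R → G (b, R) = G (b, 1)
  inv : ∀ b t R, 1 ≤ R → G (Lam (b, t), R) = G (b, R)
  var : ∀ b R, 0 < R → eVariationOn (fun t => G (Lam (b, t), R)) (Icc 0 (2 * D)) <
    ENNReal.ofReal (2 * D)

/-- the push-off for small radius, followed by the contraction -/
def stdP (e : ∀ x : M, TangentSpace 𝓘(ℝ, E) x → M) (Y : Pr e D → E) (r : ℝ)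
    (H : Pr e D × ℝ → M) (p : Pr e D × ℝ) : M :=
  if p.2 < 1 / 2 then poP e Y (rho r p.2) p.1 else H (p.1, 4 * p.2 - 3)

variable {Y : Pr e D → E} {r : ℝ} {H : Pr e D × ℝ → M}

theorem stdP_lt {b : Pr e D} {R : ℝ} (h : R < 1 / 2) :
    stdP e Y r H (b, R) = poP e Y (rho r R) b := if_pos h

theorem stdP_gt (hr : 0 < r) (hr1 : 12 * r ≤ 1) (h0 : ∀ b u, u ≤ 0 → H (b, u) = poP e Y (3 * r) b)
    {b : Pr e D} {R : ℝ} (h : 1 / 4 < R) : stdP e Y r H (b, R) = H (b, 4 * R - 3) := by
  unfold stdP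
  split_ifs with h1
  · rw [rho_of_ge hr (by simp only; linarith), h0 _ _ (by simp only at h1; linarith)]
  · rfl

theorem map_stdP (F : Facts e) (hY : IsFldP Y) (hr : 0 < r) (hr1 : 12 * r ≤ 1)
    (hH : ((dPr e D).prod (Dif.lin ℝ)).Map (dM E M) H)
    (h0 : ∀ b u, u ≤ 0 → H (b, u) = poP e Y (3 * r) b) :
    ((dPr e D).prod (Dif.lin ℝ)).Map (dM E M) (stdP e Y r H) := by
  intro E' _ _ _ u x hu
  have hu2 : ContinuousAt (fun y => (u y).2) x := Sm.continuousAt hu.2
  have hs2 : Sm (fun y => (u y).2) x := hu.2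
  by_cases hx : (u x).2 < 1 / 2
  · have h1 : (dM E M).At (fun y => poP e Y (rho r (u y).2) (u y).1) x := by
      refine map_poP F hY (u := fun y => ((u y).1, rho r (u y).2)) ⟨hu.1, ?_⟩
      exact Sm.comp (f := rho r) (g := fun y => (u y).2) (Sm.of_contDiff (contDiff_rho r) _) hs2
    refine (dM E M).congr h1 ?_
    filter_upwards [hu2.eventually_lt_const hx] with y hy
    exact (if_pos hy).symm
  · have h1 : (dM E M).At (fun y => H ((u y).1, 4 * (u y).2 - 3)) x := by
      refine hH (u := fun y => ((u y).1, 4 * (u y).2 - 3)) ⟨hu.1, ?_⟩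
      exact Sm.comp (f := fun s : ℝ => 4 * s - 3) (g := fun y => (u y).2)
        (Sm.of_contDiff (by fun_prop) _) hs2
    refine (dM E M).congr h1 ?_
    have hx' : 1 / 4 < (u x).2 := by linarith [not_lt.1 hx]
    filter_upwards [hu2.eventually_const_lt hx'] with y hy
    exact (stdP_gt hr hr1 h0 hy).symm

/-- **S3-STD over the space of pairs**: the standard family exists for every small radius -/
theorem exists_stdP {F : Facts e} {hD : 0 < D} {hB : InjGE e D}
    {hdiam : ∀ p q : M, dist p q ≤ D} {l : ℕ}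
    (hP : ∀ x y : M, dist x y = D → finrank ℝ (H775.Pl e D x y) = l + 1)
    {Lam : Pr e D × ℝ → Pr e D} {Y : Pr e D → E} {ε₀ : ℝ}
    (PL : PushL F hD hB hdiam Lam Y ε₀) {r : ℝ} (hr : 0 < r) (hr1 : 12 * r ≤ 1)
    (hr2 : 3 * r ≤ ε₀) : ∃ G : Pr e D × ℝ → M, StdP e Lam Y r G := by
  have hC : (dPr e D).Map (dM E M) (fun b => poP e Y (3 * r) b) := fun {E'} _ _ _ {u x} hu =>
    map_poP F PL.fld (u := fun s => (u s, 3 * r)) ⟨hu, Sm.of_contDiff contDiff_const _⟩
  obtain ⟨H, h1, h2, h3, h4, h5⟩ := uec_Pr F hD hB hdiam hP PL.flow PL.v hC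
    (fun b => PL.lenp (3 * r) ⟨by positivity, hr2⟩ b)
  refine ⟨stdP e Y r H, hr, hr1, map_stdP F PL.fld hr hr1 h1 h2, fun b R hR => ?_,
    fun b R hR => ?_, fun b t R hR => ?_, fun b R hR => ?_⟩
  · rw [stdP_lt (by linarith), rho_of_le hr hR]
  · rw [stdP_gt hr hr1 h2 (by linarith), stdP_gt hr hr1 h2 (by norm_num), h3 _ _ (by linarith)]
    norm_num
  · rw [stdP_gt hr hr1 h2 (by linarith), stdP_gt hr hr1 h2 (by linarith), h3 _ _ (by linarith),
      h3 b _ (by linarith), h4]
  · rcases lt_or_ge R (1 / 2) with h | h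
    · have k : (fun t => stdP e Y r H (Lam (b, t), R)) =
          fun t => poP e Y (rho r R) (Lam (b, t)) := funext fun t => stdP_lt h
      rw [k]
      exact PL.lenp (rho r R) ⟨rho_pos hr hR, (rho_le hr).trans hr2⟩ b
    · have k : (fun t => stdP e Y r H (Lam (b, t), R)) =
          fun t => H (Lam (b, t), 4 * R - 3) := funext fun t => stdP_gt hr hr1 h2 (by linarith)
      rw [k]
      exact h5 b _

end

end Vale.Agent.P231.S3S
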